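import Mathlib

/-!
# P219: the sliced metrics `dt² + ‖(L t)⁻¹ dy‖²`, definitions
-/

namespace Vale.Agent.P219.Slice

variable {m : ℕ}

/-- The volume density of `dt² + ‖(L t)⁻¹ dy‖²`. -/
noncomputable def dens (L : ℝ → EuclideanSpace ℝ (Fin m) →L[ℝ] EuclideanSpace ℝ (Fin m)) (t : ℝ) : ℝ := |(L t).det|⁻¹

/-- The norm of the differential of `w` for `dt² + ‖(L t)⁻¹ dy‖²`. -/
noncomputable def gnorm (L : ℝ → EuclideanSpace ℝ (Fin m) →L[ℝ] EuclideanSpace ℝ (Fin m)) (w : ℝ × EuclideanSpace ℝ (Fin m) → ℝ) (x : ℝ × EuclideanSpace ℝ (Fin m)) : ℝ :=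
  Real.sqrt (fderiv ℝ w x (1, 0) ^ 2
    + ‖((fderiv ℝ w x).comp (ContinuousLinearMap.inr ℝ ℝ (EuclideanSpace ℝ (Fin m)))).comp (L x.1)‖ ^ 2)

end Vale.Agent.P219.Slice
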