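import Vale.Agent.P219.Slice.Profile
import Vale.Agent.P219.Slice.Defs

/-!
# P219: the thickening of a set in a sliced metric

For `g = dt² + ‖(L t)⁻¹ dy‖²` the volume density is `dens L t = |det (L t)|⁻¹`.  The slice at
height `t` is moved by `ε s t`, `s` being the coupling of `Profile`, and Brunn–Minkowski bounds the
slices of the thickened set.  Log-convexity of the density makes the first order term in `s` nonnegative.
-/

namespace Vale.Agent.P219.Slice

open MeasureTheory Set Filter Topology Metric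
open scoped Pointwise ENNReal

variable {m : ℕ}

/-- The right derivative of the logarithm of the density. -/
noncomputable def logDer (L : ℝ → E m →L[ℝ] E m) (t : ℝ) : ℝ :=
  derivWithin (fun u => Real.log (dens L u)) (Ioi t) t

variable {L : ℝ → E m →L[ℝ] E m}

lemma dens_pos (hdet : ∀ t, (L t).det ≠ 0) (t : ℝ) : 0 < dens L t :=
  inv_pos.2 (abs_pos.2 (hdet t))

lemma continuous_dens (hdet : ∀ t, (L t).det ≠ 0)
    (hconv : ConvexOn ℝ univ fun t => Real.log (dens L t)) : Continuous (dens L) := by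
  have h : Continuous fun t => Real.log (dens L t) :=
    continuousOn_univ.1 (hconv.continuousOn isOpen_univ)
  exact (Real.continuous_exp.comp h).congr fun t => Real.exp_log (dens_pos hdet t)

lemma monotone_logDer (hconv : ConvexOn ℝ univ fun t => Real.log (dens L t)) :
    Monotone (logDer L) := by
  have h := hconv.monotoneOn_rightDeriv
  rw [interior_univ, monotoneOn_univ] at h
  exact h

lemma dens_ge (hdet : ∀ t, (L t).det ≠ 0) (hconv : ConvexOn ℝ univ fun t => Real.log (dens L t))
    (t u : ℝ) : dens L t * (1 + (u - t) * logDer L t) ≤ dens L u := by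
  set φ := fun r => Real.log (dens L r)
  have hi : ∀ r : ℝ, r ∈ interior (univ : Set ℝ) := fun r => by simp
  have key : φ t + (u - t) * logDer L t ≤ φ u := by
    rcases lt_trichotomy t u with h | h | h
    · have hs : logDer L t ≤ slope φ t u :=
        hconv.rightDeriv_le_slope_of_mem_interior (hi t) (mem_univ u) h
      rw [slope_def_field, le_div_iff₀ (by linarith : 0 < u - t)] at hs
      linarith
    · subst h; simp
    · have hs : slope φ u t ≤ logDer L t :=
        (hconv.slope_le_leftDeriv_of_mem_interior (mem_univ u) (hi t) h).trans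
          (hconv.leftDeriv_le_rightDeriv_of_mem_interior (hi t))
      rw [slope_def_field, div_le_iff₀ (by linarith : 0 < t - u)] at hs
      linarith
  calc dens L t * (1 + (u - t) * logDer L t)
      ≤ dens L t * Real.exp ((u - t) * logDer L t) :=
        mul_le_mul_of_nonneg_left (by linarith [Real.add_one_le_exp ((u - t) * logDer L t)])
          (dens_pos hdet t).le
    _ = Real.exp (φ t + (u - t) * logDer L t) := by
        rw [Real.exp_add, Real.exp_log (dens_pos hdet t)]
    _ ≤ Real.exp (φ u) := Real.exp_le_exp.2 key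
    _ = dens L u := Real.exp_log (dens_pos hdet u)

/-- Brunn–Minkowski on one slice, to first order. -/
lemma slice_bm (hm : 0 < m) (hdet : ∀ t, (L t).det ≠ 0) (t : ℝ) {S C : Set (E m)}
    (hS : MeasurableSet S) (hC : MeasurableSet C) (hfin : volume C ≠ ∞) {ε b V : ℝ} (hε : 0 < ε)
    (hb : 0 < b) (hV : 0 < V) (hVS : V ≤ dens L t * volume.real S)
    (hsub : ∀ y ∈ S, ∀ z : E m, ‖z‖ ≤ b → y + ε • L t z ∈ C) :
    V + ε * (m * ((V ^ (m : ℝ)⁻¹) ^ (m - 1) * (kap m * b))) ≤ dens L t * volume.real C := by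
  have hd := dens_pos hdet t
  set f := dens L t ^ (m : ℝ)⁻¹
  have hf : 0 < f := Real.rpow_pos_of_pos hd _
  have hfm : f ^ m = dens L t := Real.rpow_inv_natCast_pow hd.le hm.ne'
  have hS0 : 0 < volume.real S := by
    by_contra h
    push Not at h
    nlinarith
  set α := volume.real S ^ (m : ℝ)⁻¹
  have hα : 0 < α := Real.rpow_pos_of_pos hS0 _
  have hαm : α ^ m = volume.real S := Real.rpow_inv_natCast_pow hS0.le hm.ne'
  set β := kap m * b / f
  have hκ := kap_pos m
  have hβ : 0 < β := by positivity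
  set B := L t '' closedBall (0 : E m) b
  have hBc : IsCompact B := (isCompact_closedBall _ _).image (L t).continuous
  have hBv : β ^ m = volume.real B := by
    have e : dens L t = |(L t).det|⁻¹ := rfl
    have h := Measure.addHaar_image_continuousLinearMap (μ := (volume : Measure (E m))) (L t)
      (closedBall (0 : E m) b)
    rw [Measure.real, h, ENNReal.toReal_mul, ENNReal.toReal_ofReal (abs_nonneg _),
      Measure.addHaar_closedBall' volume _ hb.le, finrank_euclideanSpace_fin, ENNReal.toReal_mul,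
      ENNReal.toReal_ofReal (by positivity), ← Measure.real, ← kap_pow hm, div_pow, mul_pow, hfm,
      e, div_inv_eq_mul]
    ring
  have h := Vale.Agent.P237.BM.bm_pow (n := m) (a := 1 / 2) (b := 1 / 2)
    (A := (2 : ℝ) • S) (B := (2 * ε) • B) (C := C) (α := 2 * α) (β := 2 * ε * β)
    (by norm_num) (by norm_num) (by norm_num) (hS.const_smul₀ _)
    (hBc.measurableSet.const_smul₀ _) hC hfin ?_ (by positivity) (by positivity) ?_ ?_
  · rw [show 1 / 2 * (2 * α) + 1 / 2 * (2 * ε * β) = α + ε * β by ring] at h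
    have h2 : volume.real S + m * α ^ (m - 1) * (ε * β) ≤ volume.real C :=
      hαm ▸ (pow_add_ge hα.le (by positivity) m).trans h
    refine le_trans ?_ (mul_le_mul_of_nonneg_left h2 hd.le)
    set v := V ^ (m : ℝ)⁻¹
    have hv : 0 < v := Real.rpow_pos_of_pos hV _
    have hle : v ≤ f * α := by
      rw [← pow_le_pow_iff_left₀ hv.le (by positivity) hm.ne', mul_pow, hfm, hαm]
      exact (Real.rpow_inv_natCast_pow hV.le hm.ne').le.trans hVS
    have hpow : v ^ (m - 1) * (kap m * b) ≤ (f * α) ^ (m - 1) * (kap m * b) :=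
      mul_le_mul_of_nonneg_right (pow_le_pow_left₀ hv.le hle _) (by positivity)
    have e1 : dens L t * (α ^ (m - 1) * β) = (f * α) ^ (m - 1) * (kap m * b) := by
      rw [mul_pow, ← hfm]
      obtain ⟨k, rfl⟩ := Nat.exists_eq_add_one.2 hm
      simp only [Nat.add_sub_cancel, β, pow_succ]
      field_simp
    rw [mul_add, show dens L t * ((m : ℝ) * α ^ (m - 1) * (ε * β))
      = ε * (m * (dens L t * (α ^ (m - 1) * β))) by ring, e1]
    exact add_le_add hVS (mul_le_mul_of_nonneg_left
      (mul_le_mul_of_nonneg_left hpow (Nat.cast_nonneg _)) hε.le)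
  · intro x hx y hy
    obtain ⟨q, hq, rfl⟩ := mem_smul_set.1 hx
    obtain ⟨w, hw, rfl⟩ := mem_smul_set.1 hy
    obtain ⟨z, hz, rfl⟩ := hw
    rw [smul_smul, smul_smul, show (1 / 2 * 2 : ℝ) = 1 by norm_num, one_smul,
      show (1 / 2 * (2 * ε)) = ε by ring]
    exact hsub q hq z (by simpa using hz)
  · rw [Vale.Agent.P237.BM.vol_smul (by norm_num), mul_pow, hαm]
    rfl
  · rw [Vale.Agent.P237.BM.vol_smul (by positivity), mul_pow, hBv]
    rfl

/-- The weighted arithmetic-geometric mean step. -/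
lemma am_gm (hm : 0 < m) {V x b tot : ℝ} (hV : 0 < V) (hx : 0 ≤ x) (hb : 0 ≤ b) (htot : 0 < tot)
    (he : x * (kap m ^ m * b ^ m) = kap (m + 1) ^ (m + 1) / tot * V) :
    (m + 1) * (kap (m + 1) * (V / tot ^ ((m : ℝ) + 1)⁻¹))
      ≤ x * V + m * ((V ^ (m : ℝ)⁻¹) ^ (m - 1) * (kap m * b)) := by
  set v := V ^ (m : ℝ)⁻¹
  have hv : 0 < v := Real.rpow_pos_of_pos hV _
  have hvm : v ^ m = V := Real.rpow_inv_natCast_pow hV.le hm.ne'
  have hκ := kap_pos m
  have hκ' := kap_pos (m + 1)
  set q := v ^ (m - 1) * (kap m * b)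
  have hq : 0 ≤ q := by positivity
  set N : ℝ := (m : ℝ) + 1
  have hN : 0 < N := by positivity
  have h := Real.geom_mean_le_arith_mean2_weighted (w₁ := 1 / N) (w₂ := m / N) (p₁ := x * V)
    (p₂ := q) (by positivity) (by positivity) (by positivity) hq
    (by rw [← add_div, add_comm, div_self hN.ne'])
  set Y := kap (m + 1) * (V / tot ^ N⁻¹)
  have hY : (x * V) ^ (1 / N) * q ^ ((m : ℝ) / N) = Y := by
    rw [div_eq_mul_inv, one_mul, div_eq_mul_inv (m : ℝ), Real.rpow_mul hq, Real.rpow_natCast,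
      ← Real.mul_rpow (by positivity) (by positivity),
      ← Real.pow_rpow_inv_natCast (show 0 ≤ Y by positivity) (Nat.succ_ne_zero m)]
    have hNe : ((m.succ : ℕ) : ℝ) = N := by push_cast; rfl
    rw [hNe]
    congr 1
    have ht : (tot ^ N⁻¹) ^ (m + 1) = tot := by
      rw [← hNe]; exact Real.rpow_inv_natCast_pow htot.le (Nat.succ_ne_zero m)
    have e2 : q ^ m = V ^ (m - 1) * (kap m ^ m * b ^ m) := by
      rw [mul_pow, mul_pow, ← pow_mul, mul_comm (m - 1), pow_mul, hvm]
    calc x * V * q ^ m = (x * (kap m ^ m * b ^ m)) * (V * V ^ (m - 1)) := by rw [e2]; ring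
      _ = kap (m + 1) ^ (m + 1) / tot * V * V ^ m := by
        rw [he, ← pow_succ', Nat.sub_add_cancel hm]
      _ = Y ^ (m + 1) := by
        simp only [Y, mul_pow, div_pow, ht]; ring
  rw [hY] at h
  have h' := mul_le_mul_of_nonneg_left h hN.le
  refine h'.trans (le_of_eq ?_)
  field_simp

/-- The thickening inequality for one set. -/
theorem level_bound (hm : 0 < m) (hdet : ∀ t, (L t).det ≠ 0)
    (hconv : ConvexOn ℝ univ fun t => Real.log (dens L t)) {A C K : Set (ℝ × E m)}
    (hA : MeasurableSet A) (hC : MeasurableSet C) (hK : IsCompact K) (hCK : C ⊆ K)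
    {V : ℝ → ℝ} (hV : Continuous V) (hV0 : ∀ t, 0 ≤ V t) {R : ℝ} (hR : 0 ≤ R)
    (hVR : ∀ t, t ∉ Icc (-R) R → V t = 0)
    (hVA : ∀ t, V t ≤ dens L t * volume.real (Prod.mk t ⁻¹' A))
    {ε A₀ : ℝ} (hε : 0 < ε) (hA₀ : ∀ t ∈ Icc (-R) R, |logDer L t| ≤ A₀) (hεA : ε * A₀ ≤ 1)
    (hsub : ∀ p ∈ A, ∀ b ∈ pairBall m, (p.1 + ε * b.1, p.2 + ε • L p.1 b.2) ∈ C) :
    ENNReal.ofReal ((∫ t, V t) + ε * (1 - ε * A₀)
        * ((m + 1) * kap (m + 1) * (∫ t, V t) ^ ((m : ℝ) / (m + 1))))
      ≤ ∫⁻ x in C, ENNReal.ofReal (dens L x.1) := by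
  set tot := ∫ t, V t with htotd
  have htot0 : 0 ≤ tot := integral_nonneg hV0
  rcases htot0.eq_or_lt with h | htot
  · rw [← h, Real.zero_rpow (by positivity)]
    simp
  obtain ⟨T, s, ds, hTm, hTR, hsm, hs, hVT, hsV, ⟨t₀, ht₀, hst₀⟩, -⟩ :=
    exists_coupling hm hV hV0 hR hVR htot
  set c := kap (m + 1) * (tot ^ ((m : ℝ) + 1)⁻¹)⁻¹ with hc
  set a₀ := logDer L t₀
  set rhs := fun t => V t + ε * a₀ * (s t * V t) + ε * (1 - ε * A₀) * ((m + 1) * c) * V t with hrhs
  have hκ' := kap_pos (m + 1)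
  have hc0 : 0 ≤ c := by positivity
  have hA₀0 : 0 ≤ A₀ := (abs_nonneg _).trans (hA₀ t₀ (hTR ht₀))
  have hsmall : ∀ t ∈ T, ∀ r ∈ Icc (-R) R, -(ε * A₀) ≤ ε * (s t * logDer L r) := by
    intro t ht r hr
    obtain ⟨⟨h1, h2⟩, -⟩ := hs t ht
    have : |s t * logDer L r| ≤ A₀ := by
      rw [abs_mul]
      exact (mul_le_of_le_one_left (abs_nonneg _) (abs_le.2 ⟨h1.le, h2.le⟩)).trans (hA₀ r hr)
    rw [← mul_neg]
    exact mul_le_mul_of_nonneg_left (abs_le.1 this).1 hε.le
  have hrhs0 : ∀ t ∈ T, 0 ≤ rhs t := by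
    intro t ht
    have h1 := hsmall t ht t₀ (hTR ht₀)
    have h2 : 0 ≤ V t * (1 + ε * (s t * a₀)) := mul_nonneg (hV0 t) (by linarith)
    have h3 : 0 ≤ ε * (1 - ε * A₀) * ((m + 1) * c) * V t :=
      mul_nonneg (mul_nonneg (mul_nonneg hε.le (by linarith)) (by positivity)) (hV0 t)
    simp only [hrhs]; nlinarith
  have hpt : ∀ t ∈ T, ENNReal.ofReal (rhs t) ≤ ENNReal.ofReal (1 + ε * ds t)
      * (ENNReal.ofReal (dens L (t + ε * s t)) * volume (Prod.mk (t + ε * s t) ⁻¹' C)) := by
    intro t ht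
    obtain ⟨hst, -, hds, he⟩ := hs t ht
    rcases (hV0 t).eq_or_lt with h | hVt
    · simp [hrhs, ← h]
    set b := Real.sqrt (1 - s t ^ 2)
    have hb2 : 0 < 1 - s t ^ 2 := by nlinarith [hst.1, hst.2]
    have hb : 0 < b := Real.sqrt_pos.2 hb2
    set τ := t + ε * s t
    have hfin : volume (Prod.mk τ ⁻¹' C) ≠ ∞ :=
      ne_top_of_le_ne_top (hK.image continuous_snd).measure_lt_top.ne
        (measure_mono fun y hy => ⟨(τ, y), hCK hy, rfl⟩)
    have hbm := slice_bm hm hdet t (S := Prod.mk t ⁻¹' A) (C := Prod.mk τ ⁻¹' C)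
      (hA.preimage measurable_prodMk_left) (hC.preimage measurable_prodMk_left) hfin hε hb hVt
      (hVA t) (fun y hy z hz => hsub (t, y) hy (s t, z) (by
        show s t ^ 2 + ‖z‖ ^ 2 ≤ 1
        nlinarith [Real.sq_sqrt hb2.le, norm_nonneg z]))
    set Q := (m : ℝ) * ((V t ^ (m : ℝ)⁻¹) ^ (m - 1) * (kap m * b))
    have hQ : 0 ≤ Q := by
      have := kap_pos m
      positivity
    have hgm := am_gm hm hVt hds hb.le htot (by rw [← he]; rfl)
    have hsl := hsmall t ht t (hTR ht)
    have hmono : s t * a₀ ≤ s t * logDer L t := by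
      rcases le_total t t₀ with h | h
      · have : s t ≤ 0 := hst₀ ▸ hsm ht ht₀ h
        exact mul_le_mul_of_nonpos_left (monotone_logDer hconv h) this
      · have : 0 ≤ s t := hst₀ ▸ hsm ht₀ ht h
        exact mul_le_mul_of_nonneg_left (monotone_logDer hconv h) this
    rw [← ENNReal.ofReal_toReal hfin, ← ENNReal.ofReal_mul (dens_pos hdet τ).le,
      ← ENNReal.ofReal_mul (by positivity)]
    refine ENNReal.ofReal_le_ofReal ?_
    have hdτ : (1 + ε * (s t * logDer L t)) * dens L t ≤ dens L τ := by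
      refine le_trans (le_of_eq ?_) (dens_ge hdet hconv t τ)
      simp only [τ]; ring
    have hk : (m + 1) * c * V t ≤ ds t * V t + Q := by
      refine le_trans (le_of_eq ?_) hgm
      simp only [hc]; ring
    set l := ε * (s t * logDer L t)
    have hl : 0 ≤ 1 + l := by linarith
    calc rhs t ≤ (1 + l) * V t + (1 - ε * A₀) * (ε * (ds t * V t + Q)) := by
          have h1 : ε * a₀ * (s t * V t) ≤ l * V t := by
            have := mul_le_mul_of_nonneg_right (mul_le_mul_of_nonneg_left hmono hε.le) hVt.le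
            simp only [l]; linarith
          have h2 := mul_le_mul_of_nonneg_left (mul_le_mul_of_nonneg_left hk hε.le)
            (by linarith : 0 ≤ 1 - ε * A₀)
          simp only [hrhs]; linarith
      _ ≤ (1 + l) * V t + (1 + l) * (ε * (ds t * V t + Q)) := by
          have : 0 ≤ ds t * V t + Q := by positivity
          have := mul_le_mul_of_nonneg_right (show 1 - ε * A₀ ≤ 1 + l by linarith)
            (mul_nonneg hε.le this)
          linarith
      _ ≤ (1 + l) * ((1 + ε * ds t) * (V t + ε * Q)) := by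
          have : 0 ≤ (1 + l) * (ε * ds t * (ε * Q)) := by positivity
          linarith
      _ ≤ (1 + l) * ((1 + ε * ds t) * (dens L t * volume.real (Prod.mk τ ⁻¹' C))) :=
          mul_le_mul_of_nonneg_left (mul_le_mul_of_nonneg_left hbm (by positivity)) hl
      _ = (1 + ε * ds t) * (((1 + l) * dens L t) * volume.real (Prod.mk τ ⁻¹' C)) := by ring
      _ ≤ _ := mul_le_mul_of_nonneg_left
          (mul_le_mul_of_nonneg_right hdτ measureReal_nonneg) (by positivity)
  have hsT : AEMeasurable s (volume.restrict T) :=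
    ContinuousOn.aemeasurable (fun t ht => (hs t ht).2.1.continuousWithinAt) hTm
  have hVi : IntegrableOn V T :=
    (hV.integrableOn_Icc (a := -R) (b := R)).mono_set hTR
  have hsVi : IntegrableOn (fun t => s t * V t) T := by
    refine Integrable.mono' hVi (hsT.aestronglyMeasurable.mul hV.aestronglyMeasurable) ?_
    filter_upwards [ae_restrict_mem hTm] with t ht
    rw [Real.norm_eq_abs, abs_mul, abs_of_nonneg (hV0 t)]
    exact mul_le_of_le_one_left (hV0 t) (abs_le.2 ⟨(hs t ht).1.1.le, (hs t ht).1.2.le⟩)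
  have hrhsi : IntegrableOn rhs T := (hVi.add (hsVi.const_mul _)).add (hVi.const_mul _)
  have hint : ∫ t in T, rhs t
      = tot + ε * (1 - ε * A₀) * ((m + 1) * kap (m + 1) * tot ^ ((m : ℝ) / (m + 1))) := by
    have h3 : tot * (tot ^ ((m : ℝ) + 1)⁻¹)⁻¹ = tot ^ ((m : ℝ) / (m + 1)) := by
      rw [← div_eq_mul_inv, show (m : ℝ) / (m + 1) = 1 - ((m : ℝ) + 1)⁻¹ by field_simp; ring,
        Real.rpow_sub htot, Real.rpow_one]
    simp only [hrhs]
    have hi12 : IntegrableOn (fun t => V t + ε * a₀ * (s t * V t)) T := hVi.add (hsVi.const_mul _)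
    rw [integral_add hi12 (hVi.const_mul _),
      integral_add hVi (hsVi.const_mul _), integral_const_mul, integral_const_mul, hsV, hVT, hc,
      ← h3]
    ring
  have hinj : MonotoneOn (fun t => t + ε * s t) T := fun x hx y hy h =>
    add_le_add h (mul_le_mul_of_nonneg_left (hsm hx hy h) hε.le)
  rw [← hint, ofReal_integral_eq_lintegral_ofReal hrhsi
    ((ae_restrict_mem hTm).mono fun t ht => hrhs0 t ht)]
  refine le_trans (setLIntegral_mono' hTm hpt) ?_
  have hder : ∀ t ∈ T, HasDerivWithinAt (fun t => t + ε * s t) (1 + ε * ds t) T t := fun t ht =>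
    (hasDerivWithinAt_id t T).add ((hs t ht).2.1.const_mul ε)
  rw [← lintegral_image_eq_lintegral_deriv_mul_of_monotoneOn hTm hder hinj
    (fun τ => ENNReal.ofReal (dens L τ) * volume (Prod.mk τ ⁻¹' C))]
  refine le_trans (setLIntegral_le_lintegral _ _) (le_of_eq ?_)
  have hd : Measurable fun x : ℝ × E m => ENNReal.ofReal (dens L x.1) :=
    ((continuous_dens hdet hconv).comp continuous_fst).measurable.ennreal_ofReal
  rw [← lintegral_indicator hC, Measure.volume_eq_prod,
    lintegral_prod _ (hd.indicator hC).aemeasurable]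
  refine lintegral_congr fun τ => ?_
  rw [← lintegral_indicator_const (hC.preimage measurable_prodMk_left)
    (ENNReal.ofReal (dens L τ))]
  rfl

end Vale.Agent.P219.Slice
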