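import Vale.Agent.P219.Slice.Level

/-!
# P219: the sharp isoperimetric (`L¹` Sobolev) inequality for sliced metrics
-/

namespace Vale.Agent.P219.Slice

open MeasureTheory Set Filter Topology Metric
open scoped Pointwise ENNReal

variable {m : ℕ} {L : ℝ → E m →L[ℝ] E m}

lemma continuous_gnorm (hL : Continuous L) {w : ℝ × E m → ℝ} (hw : ContDiff ℝ 1 w) :
    Continuous (gnorm L w) := by
  have h := hw.continuous_fderiv one_ne_zero
  have h1 : Continuous fun x : ℝ × E m => L x.1 := hL.comp continuous_fst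
  exact ((h.clm_apply continuous_const).pow 2 |>.add
    (((h.clm_comp continuous_const).clm_comp h1).norm.pow 2)).sqrt

lemma le_gnorm (w : ℝ × E m → ℝ) (x : ℝ × E m) {b : ℝ × E m} (hb : b ∈ pairBall m) :
    |fderiv ℝ w x (b.1, L x.1 b.2)| ≤ gnorm L w x := by
  set D := fderiv ℝ w x
  set q := (D.comp (ContinuousLinearMap.inr ℝ ℝ (E m))).comp (L x.1)
  have e : D (b.1, L x.1 b.2) = b.1 * D (1, 0) + q b.2 := by
    rw [show (b.1, L x.1 b.2) = b.1 • ((1 : ℝ), (0 : E m)) + (0, L x.1 b.2) by simp,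
      map_add, map_smul, smul_eq_mul]
    rfl
  have hb' : b.1 ^ 2 + ‖b.2‖ ^ 2 ≤ 1 := hb
  have h1 : |D (b.1, L x.1 b.2)| ≤ |b.1| * |D (1, 0)| + ‖q‖ * ‖b.2‖ := by
    rw [e]
    refine (abs_add_le _ _).trans (add_le_add (abs_mul _ _).le ?_)
    simpa using q.le_opNorm b.2
  refine h1.trans (Real.le_sqrt_of_sq_le ?_)
  nlinarith [sq_abs b.1, sq_abs (D (1, 0)), sq_nonneg (|b.1| * ‖q‖ - |D (1, 0)| * ‖b.2‖),
    mul_le_mul_of_nonneg_right hb' (add_nonneg (sq_nonneg (D (1, 0))) (sq_nonneg ‖q‖))]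

/-- The sup-convolution with the unit balls of the metric. -/
noncomputable def gsup (L : ℝ → E m →L[ℝ] E m) (w : ℝ × E m → ℝ) (ε : ℝ) (x : ℝ × E m) : ℝ :=
  sSup ((fun b : ℝ × E m => w (x.1 - ε * b.1, x.2 - ε • L (x.1 - ε * b.1) b.2)) '' pairBall m)

lemma zero_mem_pairBall : (0 : ℝ × E m) ∈ pairBall m := by simp [pairBall]

section

variable {w : ℝ × E m → ℝ}

lemma continuous_shift (hL : Continuous L) (hw : Continuous w) (ε : ℝ) :
    Continuous fun p : (ℝ × E m) × (ℝ × E m) =>
      w (p.1.1 - ε * p.2.1, p.1.2 - ε • L (p.1.1 - ε * p.2.1) p.2.2) := by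
  have h : Continuous fun p : (ℝ × E m) × (ℝ × E m) => p.1.1 - ε * p.2.1 := by fun_prop
  exact hw.comp (h.prodMk ((continuous_snd.comp continuous_fst).sub
    (((hL.comp h).clm_apply (continuous_snd.comp continuous_snd)).const_smul ε)))

lemma continuous_gsup (hL : Continuous L) (hw : Continuous w) (ε : ℝ) :
    Continuous (gsup L w ε) :=
  (isCompact_pairBall m).continuous_sSup (continuous_shift hL hw ε)

lemma le_gsup (hL : Continuous L) (hw : Continuous w) (ε : ℝ) (x : ℝ × E m) {b : ℝ × E m}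
    (hb : b ∈ pairBall m) :
    w (x.1 - ε * b.1, x.2 - ε • L (x.1 - ε * b.1) b.2) ≤ gsup L w ε x :=
  le_csSup ((isCompact_pairBall m).image
    ((continuous_shift hL hw ε).comp (Continuous.prodMk_right x))).bddAbove (mem_image_of_mem _ hb)

lemma exists_gsup (hL : Continuous L) (hw : Continuous w) (ε : ℝ) (x : ℝ × E m) :
    ∃ b ∈ pairBall m, gsup L w ε x = w (x.1 - ε * b.1, x.2 - ε • L (x.1 - ε * b.1) b.2) := by
  obtain ⟨b, hb, e⟩ := ((isCompact_pairBall m).image
    ((continuous_shift hL hw ε).comp (Continuous.prodMk_right x))).sSup_mem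
    (Set.Nonempty.image _ ⟨0, zero_mem_pairBall⟩)
  exact ⟨b, hb, e.symm⟩

lemma self_le_gsup (hL : Continuous L) (hw : Continuous w) (ε : ℝ) (x : ℝ × E m) :
    w x ≤ gsup L w ε x := by
  simpa using le_gsup hL hw ε x zero_mem_pairBall

end

/-- The measure of a set for the metric. -/
noncomputable def gvol (L : ℝ → E m →L[ℝ] E m) : Measure (ℝ × E m) :=
  volume.withDensity fun x => ENNReal.ofReal (dens L x.1)

lemma lintegral_gvol (hdet : ∀ t, (L t).det ≠ 0)
    (hconv : ConvexOn ℝ univ fun t => Real.log (dens L t)) {f : ℝ × E m → ℝ} (hf : Continuous f)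
    (hfc : HasCompactSupport f) (hf0 : ∀ x, 0 ≤ f x) :
    ∫⁻ x, ENNReal.ofReal (f x) ∂gvol L = ENNReal.ofReal (∫ x, dens L x.1 * f x) := by
  have hd : Continuous fun x : ℝ × E m => dens L x.1 :=
    (continuous_dens hdet hconv).comp continuous_fst
  have h0 : ∀ x : ℝ × E m, 0 ≤ dens L x.1 := fun x => (dens_pos hdet x.1).le
  have hi : Integrable fun x : ℝ × E m => dens L x.1 * f x :=
    (hd.mul hf).integrable_of_hasCompactSupport hfc.mul_left
  rw [gvol, lintegral_withDensity_eq_lintegral_mul _ hd.measurable.ennreal_ofReal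
    hf.measurable.ennreal_ofReal, ofReal_integral_eq_lintegral_ofReal hi
    (ae_of_all _ fun x => mul_nonneg (h0 x) (hf0 x))]
  exact lintegral_congr fun x => (ENNReal.ofReal_mul (h0 x)).symm

lemma gvol_compact (hdet : ∀ t, (L t).det ≠ 0)
    (hconv : ConvexOn ℝ univ fun t => Real.log (dens L t)) {K : Set (ℝ × E m)}
    (hK : IsCompact K) : gvol L K ≠ ∞ := by
  rw [gvol, withDensity_apply _ hK.measurableSet]
  exact (((continuous_dens hdet hconv).comp continuous_fst).continuousOn.integrableOn_compact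
    hK).lintegral_lt_top.ne

/-- The thickening inequality for superlevel sets. -/
lemma level_superlevel (hm : 0 < m) (hdet : ∀ t, (L t).det ≠ 0) (hL : Continuous L)
    (hconv : ConvexOn ℝ univ fun t => Real.log (dens L t)) {w : ℝ × E m → ℝ} (hwc : Continuous w)
    (hc : HasCompactSupport w) {R : ℝ} (hR : 0 ≤ R)
    (hwR : ∀ x, w x ≠ 0 → x.1 ∈ Icc (-R) R) {ε A₀ : ℝ} (hε : 0 < ε)
    (hA₀ : ∀ t ∈ Icc (-R) R, |logDer L t| ≤ A₀) (hεA : ε * A₀ ≤ 1) {l : ℝ} (hl : 0 < l)
    {K : Set (ℝ × E m)} (hK : IsCompact K) (hCK : {x | l < gsup L w ε x} ⊆ K) :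
    gvol L {x | l < w x}
        + ENNReal.ofReal (ε * (1 - ε * A₀) * ((m + 1) * kap (m + 1)))
          * gvol L {x | l < w x} ^ ((m : ℝ) / (m + 1))
      ≤ gvol L {x | l < gsup L w ε x} := by
  set A := {x | l < w x}
  set C := {x | l < gsup L w ε x}
  have hAm : MeasurableSet A := (isOpen_lt continuous_const hwc).measurableSet
  have hCm : MeasurableSet C :=
    (isOpen_lt continuous_const (continuous_gsup hL hwc ε)).measurableSet
  have hAK : A ⊆ K := fun x hx => hCK (lt_of_lt_of_le hx (self_le_gsup hL hwc ε x))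
  have hAtop : gvol L A ≠ ∞ := ne_top_of_le_ne_top (gvol_compact hdet hconv hK) (measure_mono hAK)
  have hd := continuous_dens hdet hconv
  have hd0 : ∀ t, 0 ≤ dens L t := fun t => (dens_pos hdet t).le
  set h : ℕ → ℝ × E m → ℝ := fun k x => min 1 (max 0 ((k : ℝ) * (w x - l)))
  have hh : ∀ k, Continuous (h k) := fun k => by fun_prop
  have hh0 : ∀ k x, 0 ≤ h k x := fun k x => le_min zero_le_one (le_max_left _ _)
  have hhA : ∀ k x, x ∉ A → h k x = 0 := fun k x hx => by
    have : (k : ℝ) * (w x - l) ≤ 0 :=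
      mul_nonpos_of_nonneg_of_nonpos (Nat.cast_nonneg k) (sub_nonpos.2 (not_lt.1 hx))
    simp [h, max_eq_left this]
  set P := Prod.snd '' K
  have hP : IsCompact P := hK.image continuous_snd
  have hhP : ∀ k t y, y ∉ P → h k (t, y) = 0 := fun k t y hy =>
    hhA k _ fun h' => hy ⟨(t, y), hAK h', rfl⟩
  set V : ℕ → ℝ → ℝ := fun k t => dens L t * ∫ y, h k (t, y)
  have hVc : ∀ k, Continuous (V k) := fun k => by
    refine hd.mul ((continuous_parametric_integral_of_continuous (μ := (volume : Measure (E m))) (f := fun t y => h k (t, y))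
      (hh k) hP).congr fun t => ?_)
    exact setIntegral_eq_integral_of_forall_compl_eq_zero fun y hy => hhP k t y hy
  have hV0 : ∀ k t, 0 ≤ V k t := fun k t =>
    mul_nonneg (hd0 t) (integral_nonneg fun y => hh0 k _)
  have hVR : ∀ k t, t ∉ Icc (-R) R → V k t = 0 := fun k t ht => by
    have : ∀ y, h k (t, y) = 0 := fun y => hhA k _ fun h' =>
      ht (hwR (t, y) (ne_of_gt (lt_trans hl h')))
    simp [V, this]
  have hVA : ∀ k t, V k t ≤ dens L t * volume.real (Prod.mk t ⁻¹' A) := fun k t => by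
    refine mul_le_mul_of_nonneg_left ?_ (hd0 t)
    have hS : MeasurableSet (Prod.mk t ⁻¹' A) := hAm.preimage measurable_prodMk_left
    have hSf : volume (Prod.mk t ⁻¹' A) ≠ ∞ := ne_top_of_le_ne_top hP.measure_lt_top.ne
      (measure_mono fun y hy => ⟨(t, y), hAK hy, rfl⟩)
    rw [← setIntegral_one_eq_measureReal, ← setIntegral_eq_integral_of_forall_compl_eq_zero
      (s := Prod.mk t ⁻¹' A) (fun y hy => hhA k (t, y) hy)]
    refine setIntegral_mono_on ?_ (integrableOn_const hSf) hS fun y _ => min_le_left _ _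
    exact Measure.integrableOn_of_bounded hSf ((hh k).comp (Continuous.prodMk_right t)).aestronglyMeasurable
      (M := 1) (ae_of_all _ fun y => by
        show ‖h k (t, y)‖ ≤ 1
        rw [Real.norm_eq_abs, abs_of_nonneg (hh0 k _)]
        exact min_le_left _ _)
  have hsub : ∀ p ∈ A, ∀ b ∈ pairBall m, (p.1 + ε * b.1, p.2 + ε • L p.1 b.2) ∈ C := by
    intro p hp b hb
    refine lt_of_lt_of_le (show l < w p from hp) ?_
    simpa using le_gsup hL hwc ε (p.1 + ε * b.1, p.2 + ε • L p.1 b.2) hb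
  set μA := (gvol L A).toReal
  have hfi : Integrable (A.indicator fun x : ℝ × E m => dens L x.1) := by
    rw [integrable_indicator_iff hAm]
    exact ((hd.comp continuous_fst).continuousOn.integrableOn_compact hK).mono_set hAK
  have hlim : Tendsto (fun k => ∫ t, V k t) atTop (𝓝 μA) := by
    have hsupp : ∀ k, HasCompactSupport fun x : ℝ × E m => dens L x.1 * h k x := fun k =>
      HasCompactSupport.intro hK fun x hx => by simp [hhA k x fun h' => hx (hAK h')]
    have hi : ∀ k, Integrable fun x : ℝ × E m => dens L x.1 * h k x := fun k =>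
      ((hd.comp continuous_fst).mul (hh k)).integrable_of_hasCompactSupport (hsupp k)
    have e : ∀ k, ∫ t, V k t = ∫ x : ℝ × E m, dens L x.1 * h k x := fun k => by
      have hi' := hi k
      rw [Measure.volume_eq_prod] at hi' ⊢
      rw [integral_prod _ hi']
      simp only [V, integral_const_mul]
    have eA : μA = ∫ x, A.indicator (fun x : ℝ × E m => dens L x.1) x := by
      have hi' : IntegrableOn (fun x : ℝ × E m => dens L x.1) A :=
        (integrable_indicator_iff hAm).1 hfi
      simp only [μA, gvol]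
      rw [withDensity_apply _ hAm, integral_indicator hAm,
        ← ofReal_integral_eq_lintegral_ofReal hi' (ae_of_all _ fun x : ℝ × E m => hd0 x.1),
        ENNReal.toReal_ofReal (setIntegral_nonneg hAm fun x _ => hd0 x.1)]
    simp only [e]
    rw [eA]
    refine tendsto_integral_of_dominated_convergence _ (fun k => (hi k).aestronglyMeasurable) hfi
      (fun k => ae_of_all _ fun x => ?_) (ae_of_all _ fun x => ?_)
    · rw [Real.norm_eq_abs, abs_of_nonneg (mul_nonneg (hd0 _) (hh0 k x))]
      by_cases hx : x ∈ A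
      · rw [indicator_of_mem hx]
        exact mul_le_of_le_one_right (hd0 _) (min_le_left _ _)
      · simp [indicator_of_notMem hx, hhA k x hx]
    · by_cases hx : x ∈ A
      · rw [indicator_of_mem hx]
        refine Tendsto.congr' ?_ tendsto_const_nhds
        obtain ⟨N, hN⟩ := exists_nat_ge (1 / (w x - l))
        filter_upwards [eventually_ge_atTop N] with k hk
        have hpos : 0 < w x - l := sub_pos.2 hx
        have : 1 ≤ (k : ℝ) * (w x - l) := by
          rw [div_le_iff₀ hpos] at hN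
          exact hN.trans (mul_le_mul_of_nonneg_right (by exact_mod_cast hk) hpos.le)
        simp [h, le_max_of_le_right this]
      · simp [indicator_of_notMem hx, hhA _ x hx]
  set e := (m : ℝ) / (m + 1)
  have he : 0 ≤ e := by positivity
  set κ := ε * (1 - ε * A₀) * ((m + 1) * kap (m + 1))
  have hκ : 0 ≤ κ := mul_nonneg (mul_nonneg hε.le (by linarith))
    (mul_nonneg (by positivity) (kap_pos _).le)
  have hb : ENNReal.ofReal (μA + κ * μA ^ e) ≤ gvol L C := by
    have hcont : Continuous fun r : ℝ => ENNReal.ofReal (r + κ * r ^ e) :=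
      ENNReal.continuous_ofReal.comp
        (continuous_id.add (continuous_const.mul (Real.continuous_rpow_const he)))
    refine le_of_tendsto' ((hcont.tendsto μA).comp hlim) fun k => ?_
    rw [gvol, withDensity_apply _ hCm]
    refine le_trans (le_of_eq ?_) (level_bound hm hdet hconv hAm hCm hK hCK (hVc k) (hV0 k) hR
      (hVR k) (hVA k) hε hA₀ hεA hsub)
    simp only [Function.comp_apply, κ, e]
    congr 1; ring
  refine le_trans (le_of_eq ?_) hb
  rw [ENNReal.ofReal_add ENNReal.toReal_nonneg (by positivity), ENNReal.ofReal_mul hκ,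
    ← ENNReal.ofReal_rpow_of_nonneg ENNReal.toReal_nonneg he, ENNReal.ofReal_toReal hAtop]

/-- Coarea in integrated form. -/
lemma coarea_lower (hm : 0 < m) (hdet : ∀ t, (L t).det ≠ 0) (hL : Continuous L)
    (hconv : ConvexOn ℝ univ fun t => Real.log (dens L t)) {w : ℝ × E m → ℝ} (hw : ContDiff ℝ 1 w)
    (hc : HasCompactSupport w) (h0 : ∀ x, 0 ≤ w x) :
    ENNReal.ofReal ((m + 1) * kap (m + 1))
        * ∫⁻ l in Ioi (0 : ℝ), gvol L {x | l < w x} ^ ((m : ℝ) / (m + 1))
      ≤ ∫⁻ x, ENNReal.ofReal (gnorm L w x) ∂gvol L := by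
  have hwc := hw.continuous
  set K := cthickening 1 (tsupport w)
  have hK : IsCompact K := IsCompact.cthickening hc
  obtain ⟨R, hR, hKR⟩ : ∃ R, 0 ≤ R ∧ ∀ x ∈ K, ‖x‖ ≤ R := by
    obtain ⟨R, hR⟩ := hK.isBounded.exists_norm_le
    exact ⟨max R 0, le_max_right _ _, fun x hx => (hR x hx).trans (le_max_left _ _)⟩
  have hfst : ∀ x ∈ K, x.1 ∈ Icc (-R) R := fun x hx =>
    abs_le.1 ((norm_fst_le x).trans (hKR x hx))
  have hwR : ∀ x, w x ≠ 0 → x.1 ∈ Icc (-R) R := fun x hx =>
    hfst x (self_subset_cthickening _ (subset_tsupport w hx))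
  set J := Icc (-(R + 1)) (R + 1)
  obtain ⟨M, hM⟩ := isCompact_Icc.exists_bound_of_continuousOn (hL.continuousOn (s := J))
  obtain ⟨Dm, hDm⟩ :=
    (hw.continuous_fderiv one_ne_zero).bounded_above_of_compact_support (hc.fderiv ℝ)
  set A₀ := max |logDer L (-R)| |logDer L R|
  have hA₀ : ∀ t ∈ Icc (-R) R, |logDer L t| ≤ A₀ := by
    intro t ht
    have h1 := monotone_logDer hconv ht.1
    have h2 := monotone_logDer hconv ht.2
    rw [abs_le]
    constructor
    · linarith [neg_abs_le (logDer L (-R)), le_max_left |logDer L (-R)| |logDer L R|]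
    · linarith [le_abs_self (logDer L R), le_max_right |logDer L (-R)| |logDer L R|]
  have hM0 : 0 ≤ M := (norm_nonneg _).trans (hM 0 ⟨by linarith, by linarith⟩)
  have hD0 : 0 ≤ Dm := (norm_nonneg _).trans (hDm 0)
  have hA0' : 0 ≤ A₀ := le_max_of_le_left (abs_nonneg _)
  set μ := gvol L
  set G := ∫⁻ x, ENNReal.ofReal (gnorm L w x) ∂μ
  set Φ := ∫⁻ l in Ioi (0 : ℝ), μ {x | l < w x} ^ ((m : ℝ) / (m + 1))
  have hgn := continuous_gnorm hL hw
  have hg0 : ∀ x, 0 ≤ gnorm L w x := fun x => Real.sqrt_nonneg _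
  have hη : ∀ η : ℝ, 0 < η → η < 1 →
      ENNReal.ofReal ((1 - η) * ((m + 1) * kap (m + 1))) * Φ ≤ G + ENNReal.ofReal η * μ K := by
    intro η hη hη1
    set η' := η / (max 1 M + Dm + 1)
    have hden : 0 < max 1 M + Dm + 1 := by positivity
    have hη' : 0 < η' := div_pos hη hden
    obtain ⟨δ₁, hδ₁, hu₁⟩ := Metric.uniformContinuous_iff.1
      ((hc.fderiv ℝ).uniformContinuous_of_continuous (hw.continuous_fderiv one_ne_zero)) η' hη'
    obtain ⟨δ₂, hδ₂, hu₂⟩ := Metric.uniformContinuousOn_iff.1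
      (isCompact_Icc.uniformContinuousOn_of_continuous (hL.continuousOn (s := J))) η' hη'
    set B := max 1 M
    have hB : 0 < B := lt_max_of_lt_left one_pos
    set ε := min (min (1 / B) (η / (A₀ + 1))) (min (δ₁ / (2 * B)) (δ₂ / 2))
    have hε : 0 < ε := lt_min (lt_min (by positivity) (by positivity))
      (lt_min (by positivity) (by positivity))
    have hεB : ε * B ≤ 1 := by
      have : ε ≤ 1 / B := (min_le_left _ _).trans (min_le_left _ _)
      rwa [le_div_iff₀ hB] at this
    have hεA : ε * A₀ ≤ η := by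
      have : ε ≤ η / (A₀ + 1) := (min_le_left _ _).trans (min_le_right _ _)
      rw [le_div_iff₀ (by positivity)] at this
      nlinarith
    have hεδ₁ : ε * B < δ₁ := by
      have : ε ≤ δ₁ / (2 * B) := (min_le_right _ _).trans (min_le_left _ _)
      rw [le_div_iff₀ (by positivity)] at this
      linarith
    have hεδ₂ : ε < δ₂ := by
      have : ε ≤ δ₂ / 2 := (min_le_right _ _).trans (min_le_right _ _)
      linarith
    have hε1 : ε ≤ 1 := le_trans (le_mul_of_one_le_right hε.le (le_max_left 1 M)) hεB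
    set W := gsup L w ε
    have hWc : Continuous W := continuous_gsup hL hwc ε
    have hwW : ∀ x, w x ≤ W x := self_le_gsup hL hwc ε
    have hW0 : ∀ x, 0 ≤ W x := fun x => (h0 x).trans (hwW x)
    have habs : ∀ b ∈ pairBall m, |b.1| ≤ 1 ∧ ‖b.2‖ ≤ 1 := by
      intro b hb
      have hb' : b.1 ^ 2 + ‖b.2‖ ^ 2 ≤ 1 := hb
      exact ⟨by rw [← sq_le_one_iff_abs_le_one]; nlinarith [norm_nonneg b.2],
        by nlinarith [norm_nonneg b.2, sq_nonneg b.1]⟩
    have hstep : ∀ (x : ℝ × E m) (b : ℝ × E m), b ∈ pairBall m → x.1 - ε * b.1 ∈ J →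
        ‖(b.1, L (x.1 - ε * b.1) b.2)‖ ≤ B := by
      intro x b hb hJ
      obtain ⟨h1, h2⟩ := habs b hb
      rw [Prod.norm_def]
      refine max_le (le_trans h1 (le_max_left _ _)) (le_trans ?_ (le_max_right 1 M))
      exact ((L _).le_opNorm _).trans (mul_le_of_le_one_right (norm_nonneg _) h2 |>.trans (hM _ hJ))
    have hout : ∀ x, x ∉ K → W x = 0 := by
      intro x hx
      obtain ⟨b, hb, e⟩ := exists_gsup hL hwc ε x
      rw [show W x = _ from e]
      by_contra hne
      have hin := subset_tsupport w hne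
      have hJ : x.1 - ε * b.1 ∈ J := by
        have := hfst _ (self_subset_cthickening _ hin)
        exact ⟨by linarith [this.1], by linarith [this.2]⟩
      refine hx (mem_cthickening_of_dist_le x _ 1 _ hin ?_)
      have e2 : x - (x.1 - ε * b.1, x.2 - ε • L (x.1 - ε * b.1) b.2)
          = ε • (b.1, L (x.1 - ε * b.1) b.2) := by ext <;> simp
      rw [dist_eq_norm, e2, norm_smul, Real.norm_eq_abs, abs_of_pos hε]
      exact (mul_le_mul_of_nonneg_left (hstep x b hb hJ) hε.le).trans hεB
    have hgrow : ∀ x ∈ K, W x ≤ w x + ε * (gnorm L w x + η) := by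
      intro x hx
      obtain ⟨b, hb, e⟩ := exists_gsup hL hwc ε x
      obtain ⟨hb1, hb2⟩ := habs b hb
      have hxJ := hfst x hx
      have hεb : |ε * b.1| ≤ ε := by
        rw [abs_mul, abs_of_pos hε]; exact mul_le_of_le_one_right hε.le hb1
      have hJ : x.1 - ε * b.1 ∈ J := by
        have := abs_le.1 hεb
        exact ⟨by linarith [hxJ.1], by linarith [hxJ.2]⟩
      set b' : ℝ × E m := (b.1, L (x.1 - ε * b.1) b.2)
      set y : ℝ × E m := (x.1 - ε * b.1, x.2 - ε • L (x.1 - ε * b.1) b.2)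
      have hy : y - x = -(ε • b') := by ext <;> simp [y, b']
      have hb' : ‖b'‖ ≤ B := hstep x b hb hJ
      have hyx : ‖y - x‖ ≤ ε * B := by
        rw [hy, norm_neg, norm_smul, Real.norm_eq_abs, abs_of_pos hε]
        exact mul_le_mul_of_nonneg_left hb' hε.le
      have hmv := (convex_closedBall x (ε * B)).norm_image_sub_le_of_norm_fderiv_le'
        (φ := fderiv ℝ w x) (C := η') (fun z _ => hw.differentiable one_ne_zero z)
        (fun z hz => by
          have := hu₁ (lt_of_le_of_lt (mem_closedBall.1 hz) hεδ₁)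
          rw [dist_eq_norm] at this
          exact this.le)
        (mem_closedBall_self (by positivity)) (show y ∈ closedBall x (ε * B) by
          rwa [mem_closedBall, dist_eq_norm])
      rw [hy, map_neg, map_smul, smul_eq_mul, sub_neg_eq_add, norm_neg, norm_smul,
        Real.norm_eq_abs, Real.norm_eq_abs, abs_of_pos hε] at hmv
      have hLd : ‖L (x.1 - ε * b.1) - L x.1‖ ≤ η' := by
        have := hu₂ _ hJ _ (⟨by linarith [hxJ.1], by linarith [hxJ.2]⟩ : x.1 ∈ J) (by
          rw [Real.dist_eq, sub_sub_cancel_left, abs_neg]; linarith)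
        rw [dist_eq_norm] at this
        exact this.le
      have hd : -(fderiv ℝ w x b') ≤ gnorm L w x + Dm * η' := by
        have e3 : b' = (b.1, L x.1 b.2) + (0, (L (x.1 - ε * b.1) - L x.1) b.2) := by
          ext <;> simp [b']
        have h4 := le_gnorm (L := L) w x hb
        have h5 : |fderiv ℝ w x ((0 : ℝ), (L (x.1 - ε * b.1) - L x.1) b.2)| ≤ Dm * η' := by
          rw [← Real.norm_eq_abs]
          refine ((fderiv ℝ w x).le_opNorm _).trans
            (mul_le_mul (hDm x) ?_ (norm_nonneg _) hD0)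
          rw [Prod.norm_def]
          refine max_le (by simp [hη'.le]) ((ContinuousLinearMap.le_opNorm _ _).trans ?_)
          exact (mul_le_of_le_one_right (norm_nonneg _) hb2).trans hLd
        rw [e3, map_add]
        linarith [abs_le.1 h4, abs_le.1 h5]
      have h6 := (abs_le.1 hmv).2
      have h7 : ε * ‖b'‖ * η' ≤ ε * (B * η') := by
        rw [mul_assoc]; gcongr
      have h8 : B * η' + Dm * η' ≤ η := by
        rw [← add_mul, ← mul_div_assoc, div_le_iff₀ hden]
        nlinarith [le_max_left 1 M]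
      rw [show W x = w y from e]
      nlinarith [mul_le_mul_of_nonneg_left hd hε.le, mul_le_mul_of_nonneg_left h8 hε.le]
    have hfinW : ∀ l ∈ Ioi (0 : ℝ), {x | l < W x} ⊆ K := fun l hl x hx => by
      by_contra hxK
      have h' : l < W x := hx
      rw [hout x hxK] at h'
      exact absurd h' (not_lt.2 (le_of_lt hl))
    set κ := ε * (1 - ε * A₀) * ((m + 1) * kap (m + 1))
    have key : (∫⁻ x, ENNReal.ofReal (w x) ∂μ) + ENNReal.ofReal κ * Φ
        ≤ ∫⁻ x, ENNReal.ofReal (W x) ∂μ := by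
      rw [lintegral_eq_lintegral_meas_lt μ (ae_of_all _ h0) hwc.aemeasurable,
        lintegral_eq_lintegral_meas_lt μ (ae_of_all _ hW0) hWc.aemeasurable,
        ← lintegral_const_mul' _ _ ENNReal.ofReal_ne_top]
      refine le_trans (le_lintegral_add _ _) (setLIntegral_mono' measurableSet_Ioi fun l hl => ?_)
      exact level_superlevel hm hdet hL hconv hwc hc hR hwR hε hA₀ (by linarith) hl hK (hfinW l hl)
    have hup : ∫⁻ x, ENNReal.ofReal (W x) ∂μ
        ≤ (∫⁻ x, ENNReal.ofReal (w x) ∂μ) + ENNReal.ofReal ε * (G + ENNReal.ofReal η * μ K) := by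
      rw [← setLIntegral_const, ← lintegral_indicator hK.measurableSet,
        ← lintegral_add_left hgn.measurable.ennreal_ofReal,
        ← lintegral_const_mul' _ _ ENNReal.ofReal_ne_top,
        ← lintegral_add_left hwc.measurable.ennreal_ofReal]
      refine lintegral_mono fun x => ?_
      by_cases hx : x ∈ K
      · rw [indicator_of_mem hx, ← ENNReal.ofReal_add (hg0 x) hη.le, ← ENNReal.ofReal_mul hε.le,
          ← ENNReal.ofReal_add (h0 x) (by have := hg0 x; positivity)]
        exact ENNReal.ofReal_le_ofReal (hgrow x hx)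
      · simp [hout x hx]
    have hwtop : ∫⁻ x, ENNReal.ofReal (w x) ∂μ ≠ ∞ := by
      rw [lintegral_gvol hdet hconv hwc hc h0]; exact ENNReal.ofReal_ne_top
    have h := (ENNReal.add_le_add_iff_left hwtop).1 (key.trans hup)
    rw [show κ = ε * ((1 - ε * A₀) * ((m + 1) * kap (m + 1))) from mul_assoc _ _ _,
      ENNReal.ofReal_mul hε.le, mul_assoc] at h
    refine le_trans ?_ ((ENNReal.mul_le_mul_iff_right (ENNReal.ofReal_pos.2 hε).ne'
      ENNReal.ofReal_ne_top).1 h)
    refine mul_le_mul' (ENNReal.ofReal_le_ofReal ?_) le_rfl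
    exact mul_le_mul_of_nonneg_right (by linarith) (mul_nonneg (by positivity) (kap_pos _).le)
  have hcpos : 0 < ((m : ℝ) + 1) * kap (m + 1) := mul_pos (by positivity) (kap_pos _)
  have h1 : Tendsto (fun η : ℝ => ENNReal.ofReal ((1 - η) * ((m + 1) * kap (m + 1))) * Φ) (𝓝[>] 0)
      (𝓝 (ENNReal.ofReal ((m + 1) * kap (m + 1)) * Φ)) := by
    refine ENNReal.Tendsto.mul_const ?_ (Or.inl (ENNReal.ofReal_pos.2 hcpos).ne')
    have : Continuous fun η : ℝ => ENNReal.ofReal ((1 - η) * ((m + 1) * kap (m + 1))) :=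
      ENNReal.continuous_ofReal.comp (by fun_prop)
    exact (by simpa using this.tendsto 0 : Tendsto _ (𝓝 (0 : ℝ)) _).mono_left nhdsWithin_le_nhds
  have h2 : Tendsto (fun η : ℝ => G + ENNReal.ofReal η * μ K) (𝓝[>] 0) (𝓝 G) := by
    have h := (ENNReal.Tendsto.mul_const (b := μ K)
      ((ENNReal.continuous_ofReal.tendsto 0).mono_left
        (nhdsWithin_le_nhds (s := Ioi (0 : ℝ)))) (Or.inr (gvol_compact hdet hconv hK))).const_add G
    simpa using h
  refine le_of_tendsto_of_tendsto h1 h2 ?_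
  filter_upwards [self_mem_nhdsWithin,
    mem_nhdsWithin_of_mem_nhds (gt_mem_nhds (one_pos : (0 : ℝ) < 1))] with η h1 h2
  exact hη η h1 h2

/-- The sharp `L¹` Sobolev inequality for `dt² + ‖(L t)⁻¹ dy‖²`. -/
theorem sharp_sliced (hm : 0 < m) (hdet : ∀ t, (L t).det ≠ 0) (hL : Continuous L)
    (hconv : ConvexOn ℝ univ fun t => Real.log (dens L t)) {w : ℝ × E m → ℝ} (hw : ContDiff ℝ 1 w)
    (hc : HasCompactSupport w) (h0 : ∀ x, 0 ≤ w x) :
    (m + 1) * kap (m + 1)
        * (∫ x, dens L x.1 * w x ^ (((m : ℝ) + 1) / m)) ^ ((m : ℝ) / (m + 1))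
      ≤ ∫ x, dens L x.1 * gnorm L w x := by
  have hm0 : (0 : ℝ) < m := by exact_mod_cast hm
  have hwc := hw.continuous
  set N : ℝ := (m : ℝ) + 1
  have hN : 0 < N := by positivity
  set p : ℝ := N / m with hp
  set a : ℝ := (m : ℝ) / N with ha
  have hp0 : 0 < p := by positivity
  have ha0 : 0 < a := by positivity
  have hp1 : 0 < p - 1 := by rw [hp, sub_pos, one_lt_div hm0]; exact lt_add_one _
  set μ := gvol L
  set Φ := ∫⁻ l in Ioi (0 : ℝ), μ {x | l < w x} ^ a
  set g : ℝ × E m → ℝ≥0∞ := fun x => ENNReal.ofReal (w x ^ (p - 1))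
  have hgm : Measurable g :=
    ENNReal.measurable_ofReal.comp (hwc.rpow_const fun _ => Or.inr hp1.le).measurable
  have hcp : HasCompactSupport fun x => w x ^ p :=
    hc.comp_left (g := fun s : ℝ => s ^ p) (Real.zero_rpow hp0.ne')
  set I := ∫⁻ x, ENNReal.ofReal (w x ^ p) ∂μ with hI
  have hIval : I = ENNReal.ofReal (∫ x, dens L x.1 * w x ^ p) :=
    lintegral_gvol hdet hconv (hwc.rpow_const fun _ => Or.inr hp0.le) hcp
      fun x => Real.rpow_nonneg (h0 x) _
  have hItop : I ≠ ∞ := hIval ▸ ENNReal.ofReal_ne_top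
  have hint : ∀ x, g x ^ N = ENNReal.ofReal (w x ^ p) := by
    intro x
    simp only [g]
    rw [ENNReal.ofReal_rpow_of_nonneg (Real.rpow_nonneg (h0 x) _) hN.le, ← Real.rpow_mul (h0 x),
      show (p - 1) * N = p by rw [hp]; field_simp; ring]
  have hIle : I ≤ Φ * I ^ N⁻¹ := by
    have e1 : I = ∫⁻ x, ENNReal.ofReal (w x) ∂(μ.withDensity g) := by
      rw [lintegral_withDensity_eq_lintegral_mul _ hgm hwc.measurable.ennreal_ofReal, hI]
      refine lintegral_congr fun x => ?_
      show _ = g x * ENNReal.ofReal (w x)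
      simp only [g]
      rw [← ENNReal.ofReal_mul (Real.rpow_nonneg (h0 x) _)]
      congr 1
      rcases (h0 x).eq_or_lt with h | h
      · rw [← h, mul_zero, Real.zero_rpow hp0.ne']
      · rw [← Real.rpow_add_one h.ne', sub_add_cancel]
    refine e1.le.trans ?_
    rw [lintegral_eq_lintegral_meas_lt _ (ae_of_all _ h0) hwc.aemeasurable,
      ← lintegral_mul_const' _ _ (ENNReal.rpow_ne_top_of_nonneg (by positivity) hItop)]
    refine setLIntegral_mono' measurableSet_Ioi fun l hl => ?_
    have hA : MeasurableSet {x | l < w x} := (isOpen_lt continuous_const hwc).measurableSet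
    have hpq : Real.HolderConjugate N p := by
      rw [Real.holderConjugate_iff]
      refine ⟨by simp only [N]; linarith, ?_⟩
      rw [hp, inv_div]; field_simp
      simp only [N]; ring
    have hH := ENNReal.lintegral_mul_le_Lp_mul_Lq μ hpq hgm.aemeasurable
      ((measurable_one.indicator hA).aemeasurable (μ := μ))
    rw [withDensity_apply _ hA, ← lintegral_indicator hA]
    refine le_trans (le_of_eq ?_) (hH.trans ?_)
    · refine lintegral_congr fun x => ?_
      by_cases hx : x ∈ {x | l < w x} <;> simp [hx]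
    · rw [mul_comm, show (1 : ℝ) / N = N⁻¹ from one_div _]
      refine mul_le_mul' (le_of_eq ?_) (le_of_eq ?_)
      · have e2 : (fun x => ({x | l < w x}.indicator (1 : ℝ × E m → ℝ≥0∞) x) ^ p)
            = {x | l < w x}.indicator 1 := by
          funext x
          by_cases hx : x ∈ {x | l < w x} <;> simp [hx, ENNReal.zero_rpow_of_pos hp0]
        rw [e2, lintegral_indicator_one hA]
        congr 1
        rw [hp, ha, one_div_div]
      · simp only [hint]
        rfl
  have hIΦ : I ^ a ≤ Φ := by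
    rcases eq_or_ne I 0 with h | h
    · rw [h, ENNReal.zero_rpow_of_pos ha0]; exact zero_le
    · have e : I ^ a = I / I ^ N⁻¹ := by
        rw [show a = 1 - N⁻¹ by rw [ha]; field_simp; simp only [N]; ring,
          ENNReal.rpow_sub _ _ h hItop, ENNReal.rpow_one]
      rw [e]
      exact ENNReal.div_le_of_le_mul hIle
  have hgc : HasCompactSupport (gnorm L w) :=
    (hc.fderiv ℝ).mono' fun x hx => subset_tsupport _ fun h0' => hx (by simp [gnorm, h0'])
  have h1 := (mul_le_mul' le_rfl hIΦ).trans (coarea_lower hm hdet hL hconv hw hc h0)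
  have hJ : 0 ≤ ∫ x, dens L x.1 * w x ^ p :=
    integral_nonneg fun x => mul_nonneg (dens_pos hdet _).le (Real.rpow_nonneg (h0 x) _)
  rw [hIval, ENNReal.ofReal_rpow_of_nonneg hJ ha0.le,
    lintegral_gvol hdet hconv (continuous_gnorm hL hw) hgc fun x => Real.sqrt_nonneg _,
    ← ENNReal.ofReal_mul (mul_pos hN (kap_pos _)).le] at h1
  exact (ENNReal.ofReal_le_ofReal_iff
    (integral_nonneg fun x => mul_nonneg (dens_pos hdet _).le (Real.sqrt_nonneg _))).1 h1

end Vale.Agent.P219.Slice
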