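import Vale.Agent.P219.Sobolev

/-!
# P219: slices of the unit ball and the monotone coupling with a profile
-/

namespace Vale.Agent.P219.Slice

open MeasureTheory Set Filter Topology Metric
open scoped ENNReal

variable {m : ℕ}

/-- The volume of the slice of the unit ball at height `s`. -/
noncomputable def cap (m : ℕ) (s : ℝ) : ℝ := kap m ^ m * Real.sqrt (1 - s ^ 2) ^ m

lemma continuous_cap (m : ℕ) : Continuous (cap m) := by unfold cap; fun_prop

lemma cap_nonneg (m : ℕ) (s : ℝ) : 0 ≤ cap m s := by
  have := kap_pos m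
  unfold cap; positivity

lemma cap_pos (m : ℕ) {s : ℝ} (hs : s ∈ Ioo (-1 : ℝ) 1) : 0 < cap m s := by
  have := kap_pos m
  have h : 0 < 1 - s ^ 2 := by nlinarith [hs.1, hs.2]
  unfold cap; positivity

lemma cap_neg (m : ℕ) (s : ℝ) : cap m (-s) = cap m s := by simp [cap]

/-- The unit ball of `ℝ × E m` for the Euclidean norm. -/
def pairBall (m : ℕ) : Set (ℝ × E m) := {p | p.1 ^ 2 + ‖p.2‖ ^ 2 ≤ 1}

lemma isCompact_pairBall (m : ℕ) : IsCompact (pairBall m) := by
  refine (isCompact_closedBall (0 : ℝ × E m) 1).of_isClosed_subset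
    (isClosed_le (by fun_prop) continuous_const) fun p hp => ?_
  have hp' : p.1 ^ 2 + ‖p.2‖ ^ 2 ≤ 1 := hp
  rw [mem_closedBall_zero_iff, Prod.norm_def]
  refine max_le ?_ ?_
  · rw [Real.norm_eq_abs, ← sq_le_one_iff_abs_le_one]; nlinarith [norm_nonneg p.2]
  · nlinarith [norm_nonneg p.2, sq_nonneg p.1]

lemma volume_pairBall (m : ℕ) :
    volume (pairBall m) = volume (closedBall (0 : E (m + 1)) 1) := by
  have h1 : pairBall m
      = (@WithLp.toLp 2 (ℝ × E m)) ⁻¹' closedBall (0 : WithLp 2 (ℝ × E m)) 1 := by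
    ext p
    simp only [pairBall, mem_ofPred_eq, mem_preimage, mem_closedBall_zero_iff]
    rw [← abs_norm (WithLp.toLp 2 p), ← sq_le_one_iff_abs_le_one, WithLp.prod_norm_sq_eq_of_L2]
    simp
  rw [h1, (WithLp.volume_preserving_toLp ℝ (E m)).measure_preimage
    isClosed_closedBall.measurableSet.nullMeasurableSet]
  have hf : Module.finrank ℝ (WithLp 2 (ℝ × E m)) = m + 1 := by
    rw [LinearEquiv.finrank_eq (WithLp.linearEquiv 2 ℝ (ℝ × E m))]
    simp [add_comm]
  haveI : Nontrivial (WithLp 2 (ℝ × E m)) :=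
    Module.nontrivial_of_finrank_pos (R := ℝ) (by omega)
  rw [InnerProductSpace.volume_closedBall, InnerProductSpace.volume_closedBall, hf,
    finrank_euclideanSpace_fin]

lemma integral_cap (hm : 0 < m) : ∫ s in (-1 : ℝ)..1, cap m s = kap (m + 1) ^ (m + 1) := by
  have hcap : ∀ s ∈ Icc (-1 : ℝ) 1,
      volume ((fun z => (s, z)) ⁻¹' pairBall m) = ENNReal.ofReal (cap m s) := by
    intro s hs
    have h0 : 0 ≤ 1 - s ^ 2 := by nlinarith [hs.1, hs.2]
    have e : (fun z : E m => (s, z)) ⁻¹' pairBall m = closedBall 0 (Real.sqrt (1 - s ^ 2)) := by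
      ext z
      simp only [pairBall, mem_preimage, mem_ofPred_eq, mem_closedBall_zero_iff]
      rw [Real.le_sqrt (norm_nonneg _) h0]
      constructor <;> intro h <;> linarith
    rw [e, Measure.addHaar_closedBall' volume _ (Real.sqrt_nonneg _),
      finrank_euclideanSpace_fin, cap, kap_pow hm, mul_comm (volume.real _),
      ENNReal.ofReal_mul (by positivity), Measure.real,
      ENNReal.ofReal_toReal (isCompact_closedBall _ _).measure_lt_top.ne]
  have hout : ∀ s, s ∉ Icc (-1 : ℝ) 1 → (fun z : E m => (s, z)) ⁻¹' pairBall m = ∅ := by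
    intro s hs
    ext z
    simp only [pairBall, mem_preimage, mem_ofPred_eq, mem_empty_iff_false, iff_false, not_le]
    have : 1 < s ^ 2 := by
      rw [one_lt_sq_iff_one_lt_abs]
      rw [mem_Icc, ← abs_le] at hs
      exact not_le.1 hs
    nlinarith [norm_nonneg z]
  rw [kap_pow (n := m + 1) (by omega), Measure.real, ← volume_pairBall,
    Measure.volume_eq_prod, Measure.prod_apply (isCompact_pairBall m).measurableSet]
  rw [← setLIntegral_eq_of_support_subset (s := Icc (-1 : ℝ) 1) (fun s hs => by
    by_contra h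
    exact hs (by simp [hout s h]))]
  rw [setLIntegral_congr_fun measurableSet_Icc hcap,
    ← ofReal_integral_eq_lintegral_ofReal (continuous_cap m).integrableOn_Icc
      (ae_of_all _ fun s => cap_nonneg m s),
    ENNReal.toReal_ofReal (setIntegral_nonneg measurableSet_Icc fun s _ => cap_nonneg m s),
    integral_Icc_eq_integral_Ioc, intervalIntegral.integral_of_le (by norm_num)]

/-- The distribution function of the slices of the ball, continued linearly. -/
noncomputable def capDist (m : ℕ) (s : ℝ) : ℝ :=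
  (∫ u in (-1 : ℝ)..s, cap m u) + max 0 (s - 1) + min 0 (s + 1)

lemma continuous_capDist (m : ℕ) : Continuous (capDist m) := by
  have := intervalIntegral.continuous_primitive
    (fun a b => (continuous_cap m).intervalIntegrable (μ := volume) a b) (-1 : ℝ)
  exact (this.add (by fun_prop)).add (by fun_prop)

lemma strictMono_capDist (m : ℕ) : StrictMono (capDist m) := by
  intro a b hab
  have hi := fun a b => (continuous_cap m).intervalIntegrable (μ := volume) a b
  have h : ∫ u in (-1 : ℝ)..b, cap m u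
      = (∫ u in (-1 : ℝ)..a, cap m u) + ∫ u in a..b, cap m u :=
    (intervalIntegral.integral_add_adjacent_intervals (hi _ _) (hi _ _)).symm
  have h0 : 0 ≤ ∫ u in a..b, cap m u :=
    intervalIntegral.integral_nonneg hab.le fun u _ => cap_nonneg m u
  by_cases hb : b ≤ -1
  · simp only [capDist, h]
    rw [max_eq_left (by linarith : a - 1 ≤ 0), max_eq_left (by linarith : b - 1 ≤ 0),
      min_eq_right (by linarith : a + 1 ≤ 0), min_eq_right (by linarith : b + 1 ≤ 0)]
    linarith
  by_cases ha : 1 ≤ a
  · simp only [capDist, h]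
    rw [max_eq_right (by linarith : (0 : ℝ) ≤ a - 1), max_eq_right (by linarith : (0 : ℝ) ≤ b - 1),
      min_eq_left (by linarith : (0 : ℝ) ≤ a + 1), min_eq_left (by linarith : (0 : ℝ) ≤ b + 1)]
    linarith
  push Not at hb ha
  have hl : max a (-1) < min b 1 := max_lt (lt_min hab ha) (lt_min hb (by norm_num))
  have hp : 0 < ∫ u in a..b, cap m u :=
    intervalIntegral.integral_pos hab (continuous_cap m).continuousOn
      (fun u _ => cap_nonneg m u)
      ⟨(max a (-1) + min b 1) / 2, ⟨by linarith [le_max_left a (-1 : ℝ)],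
        by linarith [min_le_left b (1 : ℝ)]⟩, cap_pos m ⟨by linarith [le_max_right a (-1 : ℝ)],
        by linarith [min_le_right b (1 : ℝ)]⟩⟩
  simp only [capDist, h]
  have h1 : max 0 (a - 1) ≤ max 0 (b - 1) := max_le_max le_rfl (by linarith)
  have h2 : min 0 (a + 1) ≤ min 0 (b + 1) := min_le_min le_rfl (by linarith)
  linarith

lemma capDist_mid {s : ℝ} (hs : s ∈ Icc (-1 : ℝ) 1) :
    capDist m s = ∫ u in (-1 : ℝ)..s, cap m u := by
  simp [capDist, max_eq_left (by linarith [hs.2] : s - 1 ≤ 0),
    min_eq_left (by linarith [hs.1] : (0 : ℝ) ≤ s + 1)]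

/-- The monotone coupling of a profile `V` with the slices of the ball. -/
theorem exists_coupling (hm : 0 < m) {V : ℝ → ℝ} (hV : Continuous V) (hV0 : ∀ t, 0 ≤ V t)
    {R : ℝ} (hR : 0 ≤ R) (hVR : ∀ t, t ∉ Icc (-R) R → V t = 0) (htot : 0 < ∫ t, V t) :
    ∃ (T : Set ℝ) (s ds : ℝ → ℝ), MeasurableSet T ∧ T ⊆ Icc (-R) R ∧ MonotoneOn s T ∧
      (∀ t ∈ T, s t ∈ Ioo (-1 : ℝ) 1 ∧ HasDerivWithinAt s (ds t) T t ∧ 0 ≤ ds t ∧
        ds t * cap m (s t) = kap (m + 1) ^ (m + 1) / (∫ t, V t) * V t) ∧
      ∫ t in T, V t = ∫ t, V t ∧ ∫ t in T, s t * V t = 0 ∧ (∃ t ∈ T, s t = 0) ∧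
      ∀ t, 0 < (∫ u in (-R)..t, V u) → (∫ u in (-R)..t, V u) < ∫ u, V u → t ∈ T := by
  set tot := ∫ t, V t with htotd
  set ω := kap (m + 1) ^ (m + 1)
  have hω : 0 < ω := pow_pos (kap_pos _) _
  set M : ℝ → ℝ := fun t => ∫ u in (-R)..t, V u
  have hMc : Continuous M :=
    intervalIntegral.continuous_primitive (fun a b => hV.intervalIntegrable a b) _
  have hMd : ∀ t, HasDerivAt M (V t) t := fun t => hV.integral_hasStrictDerivAt _ t |>.hasDerivAt
  have hMm : Monotone M := monotone_of_hasDerivAt_nonneg hMd hV0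
  have hVi : Integrable V := hV.integrable_of_hasCompactSupport
    (HasCompactSupport.intro isCompact_Icc hVR)
  have hMlo : ∀ t, t ≤ -R → M t = 0 := fun t ht => by
    have : M t ≤ M (-R) := hMm ht
    have h0 : M (-R) = 0 := intervalIntegral.integral_same
    refine le_antisymm (h0 ▸ this) ?_
    show 0 ≤ ∫ u in (-R)..t, V u
    rw [intervalIntegral.integral_symm, neg_nonneg, intervalIntegral.integral_of_le ht]
    refine le_of_eq (setIntegral_eq_zero_of_forall_eq_zero fun u hu => ?_)
    rcases eq_or_lt_of_le hu.2 with h | h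
    · have : Tendsto V (𝓝[<] u) (𝓝 (V u)) := hV.continuousAt.tendsto.mono_left nhdsWithin_le_nhds
      refine tendsto_nhds_unique this (tendsto_const_nhds.congr' ?_)
      filter_upwards [self_mem_nhdsWithin] with v hv
      exact (hVR v fun h' => by linarith [h'.1, show v < u from hv]).symm
    · exact hVR u fun h' => by linarith [h'.1]
  have hMhi : ∀ t, R ≤ t → M t = tot := fun t ht => by
    show ∫ u in (-R)..t, V u = tot
    rw [intervalIntegral.integral_of_le (by linarith), ← integral_Icc_eq_integral_Ioc]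
    exact setIntegral_eq_integral_of_forall_compl_eq_zero fun u hu =>
      hVR u fun h => hu ⟨h.1, h.2.trans ht⟩
  have htop : Tendsto (capDist m) atTop atTop := by
    refine tendsto_atTop_mono' atTop ?_
      ((tendsto_atTop_add_const_right _ (-1 : ℝ) tendsto_id))
    filter_upwards [eventually_ge_atTop (1 : ℝ)] with s hs
    have : 0 ≤ ∫ u in (-1 : ℝ)..s, cap m u :=
      intervalIntegral.integral_nonneg (by linarith) fun u _ => cap_nonneg m u
    simp only [capDist, id]
    rw [max_eq_right (by linarith : (0 : ℝ) ≤ s - 1), min_eq_left (by linarith : (0 : ℝ) ≤ s + 1)]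
    linarith
  have hbot : Tendsto (capDist m) atBot atBot := by
    refine tendsto_atBot_mono' atBot ?_
      ((tendsto_atBot_add_const_right _ (1 : ℝ) tendsto_id))
    filter_upwards [eventually_le_atBot (-1 : ℝ)] with s hs
    have : ∫ u in (-1 : ℝ)..s, cap m u ≤ 0 := by
      rw [intervalIntegral.integral_symm, neg_nonpos]
      exact intervalIntegral.integral_nonneg hs fun u _ => cap_nonneg m u
    simp only [capDist, id]
    rw [max_eq_left (by linarith : s - 1 ≤ 0), min_eq_right (by linarith : s + 1 ≤ 0)]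
    linarith
  set G := (strictMono_capDist m).orderIsoOfSurjective _
    ((continuous_capDist m).surjective htop hbot)
  have hGv : ∀ x, G x = capDist m x := fun _ => rfl
  have hG1 : capDist m (-1) = 0 := by rw [capDist_mid (by norm_num)]; simp
  have hG2 : capDist m 1 = ω := by rw [capDist_mid (by norm_num), integral_cap hm]
  set s : ℝ → ℝ := fun t => G.symm (ω / tot * M t)
  set T := {t | 0 < M t ∧ M t < tot}
  have hT : IsOpen T := (isOpen_lt continuous_const hMc).inter (isOpen_lt hMc continuous_const)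
  have hs : ∀ t ∈ T, s t ∈ Ioo (-1 : ℝ) 1 := by
    intro t ht
    have e : capDist m (s t) = ω / tot * M t := G.apply_symm_apply _
    constructor
    · rw [← (strictMono_capDist m).lt_iff_lt, e, hG1]
      exact mul_pos (div_pos hω htot) ht.1
    · rw [← (strictMono_capDist m).lt_iff_lt, e, hG2, div_mul_eq_mul_div, div_lt_iff₀ htot]
      exact mul_lt_mul_of_pos_left ht.2 hω
  have hsd : ∀ t ∈ T, HasDerivAt s ((cap m (s t))⁻¹ * (ω / tot * V t)) t := by
    intro t ht
    obtain ⟨h1, h2⟩ := hs t ht
    have hd : HasDerivAt (capDist m) (cap m (s t)) (s t) := by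
      refine HasDerivAt.congr_of_eventuallyEq
        ((continuous_cap m).integral_hasStrictDerivAt (-1) (s t)).hasDerivAt ?_
      filter_upwards [Icc_mem_nhds h1 h2] with u hu
      exact capDist_mid hu
    exact (hd.of_local_left_inverse (g := G.symm) (a := ω / tot * M t) G.symm.continuous.continuousAt
      (cap_pos m (hs t ht)).ne' (Eventually.of_forall fun y => G.apply_symm_apply y)).comp t
        ((hMd t).const_mul _)
  have hmono : Monotone s := fun a b hab => G.symm.monotone
    (mul_le_mul_of_nonneg_left (hMm hab) (div_pos hω htot).le)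
  have himg : s '' T = Ioo (-1 : ℝ) 1 := by
    refine Subset.antisymm (image_subset_iff.2 hs) fun u hu => ?_
    have h1 : 0 < capDist m u := hG1 ▸ strictMono_capDist m hu.1
    have h2 : capDist m u < ω := hG2 ▸ strictMono_capDist m hu.2
    obtain ⟨t, -, ht⟩ := intermediate_value_Icc (show -R ≤ R by linarith) hMc.continuousOn
      (show tot / ω * capDist m u ∈ Icc (M (-R)) (M R) by
        rw [hMlo _ le_rfl, hMhi _ le_rfl]
        refine ⟨by positivity, ?_⟩
        rw [div_mul_eq_mul_div, div_le_iff₀ hω]; nlinarith)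
    refine ⟨t, ⟨by rw [ht]; positivity, ?_⟩, ?_⟩
    · rw [ht, div_mul_eq_mul_div, div_lt_iff₀ hω]; exact mul_lt_mul_of_pos_left h2 htot
    · show G.symm (ω / tot * M t) = u
      rw [ht, G.symm_apply_eq, hGv]; field_simp
  have hkey : ∀ f : ℝ → ℝ,
      ∫ u in Ioo (-1 : ℝ) 1, f u * cap m u = ω / tot * ∫ t in T, f (s t) * V t := by
    intro f
    rw [← himg, integral_image_eq_integral_deriv_smul_of_monotoneOn hT.measurableSet
      (fun t ht => (hsd t ht).hasDerivWithinAt) (hmono.monotoneOn _), ← integral_const_mul]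
    refine setIntegral_congr_fun hT.measurableSet fun t ht => ?_
    have := (cap_pos m (hs t ht)).ne'
    simp only [smul_eq_mul]; field_simp
  have hcap : ∫ u in Ioo (-1 : ℝ) 1, cap m u = ω := by
    rw [← integral_Ioc_eq_integral_Ioo, ← intervalIntegral.integral_of_le (by norm_num)]
    exact integral_cap hm
  refine ⟨T, s, fun t => (cap m (s t))⁻¹ * (ω / tot * V t), hT.measurableSet, fun t ht => ?_,
    hmono.monotoneOn _, fun t ht => ⟨hs t ht, (hsd t ht).hasDerivWithinAt, ?_, ?_⟩, ?_, ?_, ?_,
    fun t h1 h2 => ⟨h1, h2⟩⟩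
  · constructor
    · by_contra h; exact ht.1.ne' (hMlo t (le_of_not_ge h))
    · by_contra h; exact ht.2.ne (hMhi t (le_of_not_ge h))
  · have := cap_nonneg m (s t)
    have := hV0 t
    positivity
  · have := (cap_pos m (hs t ht)).ne'
    field_simp
  · have h := hkey fun _ => 1
    simp only [one_mul] at h
    rw [hcap] at h
    field_simp at h
    linarith
  · have h := hkey fun u => u
    have hodd : ∫ u in Ioo (-1 : ℝ) 1, u * cap m u = 0 := by
      rw [← integral_Ioc_eq_integral_Ioo, ← intervalIntegral.integral_of_le (by norm_num)]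
      have h := intervalIntegral.integral_comp_neg (f := fun u => u * cap m u) (a := (-1 : ℝ))
        (b := 1)
      simp only [cap_neg, neg_mul, intervalIntegral.integral_neg, neg_neg] at h
      linarith
    rw [hodd] at h
    exact (mul_eq_zero.1 h.symm).resolve_left (div_pos hω htot).ne'
  · have : (0 : ℝ) ∈ s '' T := by rw [himg]; norm_num
    exact this

end Vale.Agent.P219.Slice
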